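import Vale.Agent.P141.H48.ENdefs
import Vale.Agent.P141.H834.MomF
import Vale.Agent.P141.H834.Triv
import Vale.Agent.P141.H573.MomPerm
import Vale.Agent.P141.H944.BoxT

/-!
# P141, line W, squad EN: the fourth moments of a slot (EN2)

* `mo4_of_l`: every slot with line energies at most `e` has fourth moments with constant `e ^ 2`;
* `mo4_of_un`: a uniform slot has fourth moments with constant `240000 t² e`.
-/

namespace Vale.Agent.P141.H206

open Finset Vale.Agent.P141.PL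
open Vale.Agent.P141.PL.H315 (cube3 atm Tri avg avg_nonneg)
open Vale.Agent.P141.H922 (n2 n4 nN pw3 wP)
open Vale.Agent.P141.H769 (mo4f mo4f_eq)
open Vale.Agent.P141.H48 (BSl BUn Mo4 US ES)
open Vale.Agent.P141.H834 (UnifP LineB gf mo4_triv mo4_le)

noncomputable section

theorem iv_eq (k : ℕ) (m : ℤ) : PL.H315.iv k (2 ^ k * m) = iv k m := by
  have h2 : ((2 : ℤ) ^ k) ≠ 0 := by positivity
  unfold PL.H315.iv iv
  rw [Int.mul_ediv_cancel_left m h2]

theorem card_iv' (k : ℕ) (m : ℤ) : (iv k m).card = 2 ^ k := by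
  unfold iv
  rw [Int.card_Ico]
  have : (2 : ℤ) ^ k * m + 2 ^ k - 2 ^ k * m = ((2 ^ k : ℕ) : ℤ) := by push_cast; ring
  rw [this, Int.toNat_natCast]

theorem avg_iv_le {k : ℕ} {m : ℤ} {f : ℤ → ℝ} {e : ℝ} (h : ∑ x ∈ iv k m, f x ≤ e * 2 ^ k) :
    (avg (iv k m) f) ≤ e := by
  unfold avg
  rw [card_iv']
  push_cast
  rw [inv_mul_le_iff₀ (by positivity)]
  linarith

variable {n : ℕ} {e cP : ℝ} {F : ℕ → Pt → ℝ} {Q : ℕ → Pt → Prop}

theorem iv_ne (k : ℕ) (m : ℤ) : (iv k m).Nonempty := by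
  rw [← card_pos, card_iv']
  positivity

/-- the line averages of a slot on a cube -/
theorem lineB_of (h : BSl n e cP F Q) {k : ℕ} (hk : k < n) (m : Pt) :
    LineB e (iv k m.1) (iv k m.2.1) (iv k m.2.2) (F (k + 1)) where
  l1 y _ z _ := avg_iv_le (h.l0 k hk m.1 y z)
  l2 x _ z _ := avg_iv_le (h.l1 k hk m.2.1 x z)
  l3 x _ y _ := avg_iv_le (h.l2 k hk m.2.2 x y)

/-- **Trivial fourth moments.** -/
theorem mo4_of_l (he : 0 ≤ e) (h : BSl n e cP F Q) : Mo4 n (e ^ 2) F := by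
  intro k hk m a
  rw [mo4f_eq]
  have h1 := mo4_triv he (H573.lineB_231 (lineB_of h hk m)) a
  rw [mul_pow] at h1
  exact h1

/-- **Fourth moments of a uniform slot.** -/
theorem mo4_of_un {t : ℝ} (ht : 0 ≤ t) (he : 0 ≤ e) (h : BSl n e cP F Q) (hU : BUn n t F) :
    Mo4 n (240000 * (t ^ 2 * e)) F := by
  intro k hk m a
  rw [mo4f_eq]
  have h0 : UnifP t (iv k m.1) (iv k m.2.1) (iv k m.2.2) (F (k + 1)) := by
    have h2 := H944.unifP_of_sum (k := k) (q := (2 ^ k * m.1, 2 ^ k * m.2.1, 2 ^ k * m.2.2))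
      (d := t) (G := F (k + 1)) fun u => hU k hk _ u
    simp only [iv_eq] at h2
    exact h2
  have h1 := mo4_le ht he (iv_ne k m.2.1) (iv_ne k m.2.2) (H573.unifP_231 h0)
    (H573.lineB_231 (lineB_of h hk m)) a
  rw [mul_pow] at h1
  exact h1

end

end Vale.Agent.P141.H206
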