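import Vale.Agent.P141.H971.Cen
import Vale.Agent.P141.H136.Scal3

/-!
# P141, CE: centre data on a root cube, normalised

`CenN N M s ν g u v`: the hypotheses of the process, of the removal rule, of (U4) and of the price of
the removed pieces, for the composite function `comp g u v` (labels at the first vertex), on the root
cube `(N; M)`: heights `1`, masses `s`, rows of `g` and columns of `u` at most `√s`, potentials at
most `ν`, everything zero outside the root.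

`cenN_of_cen`: from the centre data `Cen` of `H971` on the box `A = iv N M₂`, `B = iv N M₃`,
`C = iv N M₁`, with `s = (p / h)²`, `ν = K / (h² e)`, and `cen a u v = h³ e comp g' u' v'`.
-/

namespace Vale.Agent.P141.H206

noncomputable section

open scoped BigOperators
open Finset
open Vale.Agent.P141.PL (Pt Bx iv ix cb cx loc mem_iv self_mem_iv card_iv mem_cb)
open Vale.Agent.P141.PL.H315 (avg avg_nonneg Tri atm e12 e13 e23)
open Vale.Agent.P141.H922 (n2 n4 nN n2_nonneg n2_sq)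
open Vale.Agent.P141.H834 (gf)
open Vale.Agent.P141.H971 (Cen cen qf opn mass mass_nonneg)
open Vale.Agent.P141.H136 (comp)

variable {V : Type*} [NormedAddCommGroup V] [InnerProductSpace ℝ V]

/-- normalised centre data on the cube `(N; M)`, labels at the first vertex -/
structure CenN (N : ℕ) (M : Pt) (s ν : ℝ) (g : ℤ × ℤ → ℝ) (u v : ℤ → ℤ → V) : Prop where
  s0 : 0 ≤ s
  ν0 : 0 ≤ ν
  g1 : ∀ p, |g p| ≤ 1
  u1 : ∀ x y, ‖u x y‖ ≤ 1
  v1 : ∀ x y, ‖v x y‖ ≤ 1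
  /-- zero outside the root -/
  g_out : ∀ y z, ¬ (y ∈ iv N M.2.1 ∧ z ∈ iv N M.2.2) → g (y, z) = 0
  u_out : ∀ x y, ¬ (x ∈ iv N M.1 ∧ y ∈ iv N M.2.1) → u x y = 0
  v_out : ∀ x z, ¬ (x ∈ iv N M.1 ∧ z ∈ iv N M.2.2) → v x z = 0
  /-- masses -/
  g_mass : ∑ y ∈ iv N M.2.1, ∑ z ∈ iv N M.2.2, g (y, z) ^ 2 ≤ s * 4 ^ N
  u_mass : mass (iv N M.1) (iv N M.2.1) u ≤ s * 4 ^ N
  v_mass : mass (iv N M.1) (iv N M.2.2) v ≤ s * 4 ^ N
  /-- rows of the gauge, columns of the split edge -/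
  g_row : ∀ y, ∑ z ∈ iv N M.2.2, g (y, z) ^ 2 ≤ √s * 2 ^ N
  u_col : ∀ y, ∑ x ∈ iv N M.1, ‖u x y‖ ^ 2 ≤ √s * 2 ^ N
  /-- potentials -/
  u_pot : ∀ x, opn (iv N M.2.1) (u x) ≤ ν * 2 ^ N
  v_pot : ∀ x, opn (iv N M.2.2) (v x) ≤ ν * 2 ^ N

/-- `√s` for `s` a square -/
theorem sqrt_div_sq {p h : ℝ} (hp : 0 ≤ p) (hh : 0 < h) : √((p / h) ^ 2) = p / h :=
  Real.sqrt_sq (div_nonneg hp hh.le)

theorem opn_le_of {B : Finset ℤ} {f : ℤ → V} {c : ℝ} (hc : 0 ≤ c)
    (h : ∀ w : V, qf B f w ≤ c * ‖w‖ ^ 2) : opn B f ≤ c := by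
  have : Nonempty (Metric.closedBall (0 : V) 1) :=
    ⟨⟨0, Metric.mem_closedBall_self zero_le_one⟩⟩
  unfold opn
  refine ciSup_le fun w => (h w.1).trans ?_
  have h1 : ‖w.1‖ ≤ 1 := mem_closedBall_zero_iff.mp w.2
  have h2 : ‖w.1‖ ^ 2 ≤ 1 := pow_le_one₀ (norm_nonneg _) h1
  calc c * ‖w.1‖ ^ 2 ≤ c * 1 := mul_le_mul_of_nonneg_left h2 hc
    _ = c := mul_one c

theorem avg_iv (N : ℕ) (m : ℤ) (f : ℤ → ℝ) : ∑ x ∈ iv N m, f x = 2 ^ N * avg (iv N m) f := by
  unfold avg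
  rw [card_iv]
  push_cast
  rw [← mul_assoc, mul_inv_cancel₀ (by positivity), one_mul]

section

variable {N : ℕ} {M : Pt} {h p e K : ℝ} {a : ℤ → ℤ → ℝ} {u v : ℤ → ℤ → V}

/-- the normalised gauge -/
def gN (N : ℕ) (M : Pt) (h : ℝ) (a : ℤ → ℤ → ℝ) (q : ℤ × ℤ) : ℝ :=
  if q.1 ∈ iv N M.2.1 ∧ q.2 ∈ iv N M.2.2 then h⁻¹ * a q.1 q.2 else 0

/-- the normalised vector edge to the second vertex -/
def uN (N : ℕ) (M : Pt) (h e : ℝ) (u : ℤ → ℤ → V) (x y : ℤ) : V :=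
  if x ∈ iv N M.1 ∧ y ∈ iv N M.2.1 then (h * √e)⁻¹ • u x y else 0

/-- the normalised vector edge to the third vertex -/
def vN (N : ℕ) (M : Pt) (h e : ℝ) (v : ℤ → ℤ → V) (x z : ℤ) : V :=
  if x ∈ iv N M.1 ∧ z ∈ iv N M.2.2 then (h * √e)⁻¹ • v x z else 0

/-- the value of the centre atom at a point of the root -/
theorem cen_eq (hh : 0 < h) (he : 0 < e) {x y z : ℤ} (hx : x ∈ iv N M.1) (hy : y ∈ iv N M.2.1)
    (hz : z ∈ iv N M.2.2) :
    cen a u v (y, z, x) = h ^ 3 * e * comp (gN N M h a) (uN N M h e u) (vN N M h e v) (x, y, z) := by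
  unfold cen comp gN uN vN
  simp only
  rw [if_pos ⟨hy, hz⟩, if_pos ⟨hx, hy⟩, if_pos ⟨hx, hz⟩, inner_smul_left, inner_smul_right]
  have h1 : √e * √e = e := Real.mul_self_sqrt he.le
  have h2 : √e ≠ 0 := (Real.sqrt_pos.2 he).ne'
  simp only [conj_trivial]
  have h3 : h ^ 3 * e * (h⁻¹ * a y z * ((h * √e)⁻¹ * ((h * √e)⁻¹ * inner ℝ (u x y) (v x z)))) =
      (h ^ 3 * (h⁻¹) ^ 3) * (e * (√e * √e)⁻¹) * (a y z * inner ℝ (u x y) (v x z)) := by
    rw [mul_inv, mul_inv]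
    ring
  rw [h3, h1, mul_inv_cancel₀ he.ne', ← mul_pow, mul_inv_cancel₀ hh.ne']
  ring

theorem norm_smul_sq (he : 0 < e) (w : V) :
    ‖(h * √e)⁻¹ • w‖ ^ 2 = (h ^ 2 * e)⁻¹ * ‖w‖ ^ 2 := by
  have h1 : √e ^ 2 = e := Real.sq_sqrt he.le
  rw [norm_smul, mul_pow, Real.norm_eq_abs, sq_abs, inv_pow, mul_pow, h1]

/-- **The normalisation of centre data.** -/
theorem cenN_of_cen (hh : 0 < h) (hp : 0 ≤ p) (he : 0 < e) (hK : 0 ≤ K)
    (H : Cen (iv N M.2.1) (iv N M.2.2) (iv N M.1) h p e K a u v) :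
    CenN N M ((p / h) ^ 2) (K / (h ^ 2 * e)) (gN N M h a) (uN N M h e u) (vN N M h e v) := by
  have hs : √((p / h) ^ 2) = p / h := sqrt_div_sq hp hh
  have hhe : 0 < h ^ 2 * e := by positivity
  have h4 : (4 : ℝ) ^ N = 2 ^ N * 2 ^ N := by rw [← mul_pow]; norm_num
  have hsq : ∀ w : V, ‖w‖ ^ 2 ≤ h ^ 2 * e → ‖(h * √e)⁻¹ • w‖ ≤ 1 := by
    intro w hw
    have h1 : ‖(h * √e)⁻¹ • w‖ ^ 2 ≤ 1 := by
      rw [norm_smul_sq he, inv_mul_le_iff₀ hhe, mul_one]; exact hw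
    exact (sq_le_one_iff₀ (norm_nonneg _)).1 h1
  -- mass of a vector edge
  have hmass : ∀ (b : ℤ) (w w' : ℤ → ℤ → V),
      (∀ x ∈ iv N M.1, ∀ y ∈ iv N b, w' x y = (h * √e)⁻¹ • w x y) →
      (avg (iv N M.1) fun x => avg (iv N b) fun y => ‖w x y‖ ^ 2) ≤ e * p ^ 2 →
      mass (iv N M.1) (iv N b) w' ≤ (p / h) ^ 2 * 4 ^ N := by
    intro b w w' hw hb
    have e1 : mass (iv N M.1) (iv N b) w' =
        (h ^ 2 * e)⁻¹ * (4 ^ N * avg (iv N M.1) fun x => avg (iv N b) fun y => ‖w x y‖ ^ 2) := by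
      unfold mass
      rw [h4, mul_assoc (2 ^ N : ℝ), ← H550.avg_mul_left _ (2 ^ N : ℝ), ← avg_iv, mul_sum]
      refine sum_congr rfl fun x hx => ?_
      rw [← avg_iv, mul_sum]
      refine sum_congr rfl fun y hy => ?_
      rw [hw x hx y hy, norm_smul_sq he]
    rw [e1, inv_mul_le_iff₀ hhe]
    calc 4 ^ N * avg (iv N M.1) (fun x => avg (iv N b) fun y => ‖w x y‖ ^ 2)
        ≤ 4 ^ N * (e * p ^ 2) := mul_le_mul_of_nonneg_left hb (by positivity)
      _ = _ := by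
        rw [div_pow]
        field_simp
  -- potential of a vector edge
  have hpot : ∀ (b : ℤ) (w w' : ℤ → ℤ → V),
      (∀ x ∈ iv N M.1, ∀ y ∈ iv N b, w' x y = (h * √e)⁻¹ • w x y) →
      (∀ x, x ∉ iv N M.1 → ∀ y, w' x y = 0) →
      (∀ x ∈ iv N M.1, ∀ q : V, (avg (iv N b) fun y => (inner ℝ (w x y) q) ^ 2) ≤ K * ‖q‖ ^ 2) →
      ∀ x, opn (iv N b) (w' x) ≤ K / (h ^ 2 * e) * 2 ^ N := by
    intro b w w' hw hw0 hb x
    refine opn_le_of (by positivity) fun q => ?_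
    by_cases hx : x ∈ iv N M.1
    · have e1 : qf (iv N b) (w' x) q =
          (h ^ 2 * e)⁻¹ * (2 ^ N * avg (iv N b) fun y => (inner ℝ (w x y) q) ^ 2) := by
        unfold qf
        rw [← avg_iv, mul_sum]
        refine sum_congr rfl fun y hy => ?_
        rw [hw x hx y hy, inner_smul_left, mul_pow]
        simp only [conj_trivial]
        rw [inv_pow, mul_pow, Real.sq_sqrt he.le]
      rw [e1, div_mul_eq_mul_div, div_mul_eq_mul_div, inv_mul_eq_div]
      refine div_le_div_of_nonneg_right ?_ hhe.le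
      have h1 := mul_le_mul_of_nonneg_left (hb x hx q) (show (0 : ℝ) ≤ 2 ^ N by positivity)
      linarith
    · have e1 : qf (iv N b) (w' x) q = 0 := by
        unfold qf
        refine sum_eq_zero fun y _ => ?_
        rw [hw0 x hx y, inner_zero_left, zero_pow two_ne_zero]
      rw [e1]
      positivity
  have hu' : ∀ x ∈ iv N M.1, ∀ y ∈ iv N M.2.1, uN N M h e u x y = (h * √e)⁻¹ • u x y :=
    fun x hx y hy => by unfold uN; rw [if_pos ⟨hx, hy⟩]
  have hv' : ∀ x ∈ iv N M.1, ∀ y ∈ iv N M.2.2, vN N M h e v x y = (h * √e)⁻¹ • v x y :=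
    fun x hx y hy => by unfold vN; rw [if_pos ⟨hx, hy⟩]
  refine
    { s0 := sq_nonneg _
      ν0 := by positivity
      g1 := ?_
      u1 := ?_
      v1 := ?_
      g_out := ?_
      u_out := ?_
      v_out := ?_
      g_mass := ?_
      u_mass := ?_
      v_mass := ?_
      g_row := ?_
      u_col := ?_
      u_pot := ?_
      v_pot := ?_ }
  · intro q
    unfold gN
    split_ifs with hq
    · rw [abs_mul, abs_of_pos (inv_pos.2 hh), inv_mul_le_iff₀ hh, mul_one]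
      exact H.a_le _ hq.1 _ hq.2
    · rw [abs_zero]; exact zero_le_one
  · intro x y
    unfold uN
    split_ifs with hq
    · exact hsq _ (H.u_le _ hq.1 _ hq.2)
    · rw [norm_zero]; exact zero_le_one
  · intro x y
    unfold vN
    split_ifs with hq
    · exact hsq _ (H.v_le _ hq.1 _ hq.2)
    · rw [norm_zero]; exact zero_le_one
  · intro y z hq
    unfold gN
    exact if_neg hq
  · intro y z hq
    unfold uN
    exact if_neg hq
  · intro y z hq
    unfold vN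
    exact if_neg hq
  · have e1 : ∑ y ∈ iv N M.2.1, ∑ z ∈ iv N M.2.2, gN N M h a (y, z) ^ 2 =
        (h ^ 2)⁻¹ * (4 ^ N * n2 (iv N M.2.1 ×ˢ iv N M.2.2) (gf a) ^ 2) := by
      rw [n2_sq, H550.avg_prod, h4, mul_assoc (2 ^ N : ℝ), ← H550.avg_mul_left _ (2 ^ N : ℝ),
        ← avg_iv, mul_sum]
      refine sum_congr rfl fun y hy => ?_
      rw [← avg_iv, mul_sum]
      refine sum_congr rfl fun z hz => ?_
      unfold gN gf
      rw [if_pos ⟨hy, hz⟩, mul_pow, inv_pow]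
    rw [e1, inv_mul_le_iff₀ (by positivity)]
    calc 4 ^ N * n2 (iv N M.2.1 ×ˢ iv N M.2.2) (gf a) ^ 2 ≤ 4 ^ N * p ^ 2 :=
          mul_le_mul_of_nonneg_left (pow_le_pow_left₀ (n2_nonneg _ _) H.a_n2 2) (by positivity)
      _ = _ := by rw [div_pow]; field_simp
  · exact hmass _ u _ hu' H.u_en
  · exact hmass _ v _ hv' H.v_en
  · intro y
    rw [hs]
    by_cases hy : y ∈ iv N M.2.1
    · have e1 : ∑ z ∈ iv N M.2.2, gN N M h a (y, z) ^ 2 =
          (h ^ 2)⁻¹ * (2 ^ N * avg (iv N M.2.2) fun z => a y z ^ 2) := by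
        rw [← avg_iv, mul_sum]
        refine sum_congr rfl fun z hz => ?_
        unfold gN
        rw [if_pos ⟨hy, hz⟩, mul_pow, inv_pow]
      rw [e1, inv_mul_le_iff₀ (by positivity)]
      calc 2 ^ N * avg (iv N M.2.2) (fun z => a y z ^ 2) ≤ 2 ^ N * (h * p) :=
            mul_le_mul_of_nonneg_left (H.a_row y hy) (by positivity)
        _ = _ := by field_simp
    · have e1 : ∑ z ∈ iv N M.2.2, gN N M h a (y, z) ^ 2 = 0 := by
        refine sum_eq_zero fun z _ => ?_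
        unfold gN
        rw [if_neg fun hq => hy hq.1, zero_pow two_ne_zero]
      rw [e1]
      positivity
  · intro y
    rw [hs]
    by_cases hy : y ∈ iv N M.2.1
    · have e1 : ∑ x ∈ iv N M.1, ‖uN N M h e u x y‖ ^ 2 =
          (h ^ 2 * e)⁻¹ * (2 ^ N * avg (iv N M.1) fun x => ‖u x y‖ ^ 2) := by
        rw [← avg_iv, mul_sum]
        refine sum_congr rfl fun x hx => ?_
        rw [hu' x hx y hy, norm_smul_sq he]
      rw [e1, inv_mul_le_iff₀ hhe]
      calc 2 ^ N * avg (iv N M.1) (fun x => ‖u x y‖ ^ 2) ≤ 2 ^ N * (e * (h * p)) :=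
            mul_le_mul_of_nonneg_left (H.u_col y hy) (by positivity)
        _ = _ := by field_simp
    · have e1 : ∑ x ∈ iv N M.1, ‖uN N M h e u x y‖ ^ 2 = 0 := by
        refine sum_eq_zero fun x _ => ?_
        unfold uN
        rw [if_neg fun hq => hy hq.2, norm_zero, zero_pow two_ne_zero]
      rw [e1]
      positivity
  · refine hpot _ u _ hu' ?_ H.u_pot
    intro x hx y
    unfold uN
    exact if_neg fun hq => hx hq.1
  · refine hpot _ v _ hv' ?_ H.v_pot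
    intro x hx y
    unfold vN
    exact if_neg fun hq => hx hq.1

end

end

end Vale.Agent.P141.H206
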